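import Vale.Agent.Lib.StackLang.NatLang

/-! A typed class of polynomial-time functions, compiled to programs over stacks of naturals. -/

namespace Vale.Agent.Lib.PolyTime

open Vale.Agent.Lib.StackLang Function

/-- Stack names. -/
inductive K : Type
  | m | x | y | z
  deriving DecidableEq

instance : Fintype K := ⟨{.m, .x, .y, .z}, fun k => by cases k <;> simp⟩

/-- States. -/
def st (m x y z : List ℕ) : K → List ℕ
  | .m => m
  | .x => x
  | .y => y
  | .z => z

@[simp] theorem st_m (m x y z : List ℕ) : st m x y z .m = m := rfl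
@[simp] theorem st_x (m x y z : List ℕ) : st m x y z .x = x := rfl
@[simp] theorem st_y (m x y z : List ℕ) : st m x y z .y = y := rfl
@[simp] theorem st_z (m x y z : List ℕ) : st m x y z .z = z := rfl
@[simp] theorem up_m (m x y z l : List ℕ) : update (st m x y z) .m l = st l x y z := by
  funext k; cases k <;> simp
@[simp] theorem up_x (m x y z l : List ℕ) : update (st m x y z) .x l = st m l y z := by
  funext k; cases k <;> simp
@[simp] theorem up_y (m x y z l : List ℕ) : update (st m x y z) .y l = st m x l z := by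
  funext k; cases k <;> simp
@[simp] theorem up_z (m x y z l : List ℕ) : update (st m x y z) .z l = st m x y l := by
  funext k; cases k <;> simp

/-- The unused procedure body. -/
def bd : P2 K := .act (.pop .m)

/-- Runs. -/
abbrev R : P2 K → (K → List ℕ) → (K → List ℕ) → ℕ → Prop := Run2 bd

/-- Straight-line code. -/
def acts : List (A2 K) → P2 K
  | [] => .seq (.act (.zero .m)) (.act (.pop .m))
  | a :: l => .seq (.act a) (acts l)

theorem run_acts (l : List (A2 K)) (s : K → List ℕ) :
    R (acts l) s (l.foldl (fun s a => act2 a s) s) (l.length + 2) := by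
  induction l generalizing s with
  | nil => exact ((Run.act _ _).seq (Run.act _ _)).congr (by simp [act2]) (by simp)
  | cons a l ih => exact ((Run.act _ _).seq (ih _)).congr rfl (by simp; omega)

theorem run_acts' (l : List (A2 K)) {s s' : K → List ℕ}
    (h : l.foldl (fun s a => act2 a s) s = s') : R (acts l) s s' (l.length + 2) :=
  h ▸ run_acts l s

/-- Auxiliary pairing loop. -/
def prA (a acc : ℕ) : ℕ :=
  if h : a = 0 then acc else prA (a / 2) (4 * acc + 2 * (a % 2) + 1)
termination_by a
decreasing_by omega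

/-- Self-delimiting pairing. -/
def pr (a b : ℕ) : ℕ := prA a (2 * b)

/-- Auxiliary unpairing loop. -/
def unA (n r : ℕ) : ℕ × ℕ :=
  if h : n % 2 = 0 then (r, n / 2) else unA (n / 4) (2 * r + n / 2 % 2)
termination_by n
decreasing_by omega

/-- First projection. -/
def fstN (n : ℕ) : ℕ := (unA n 0).1
/-- Second projection. -/
def sndN (n : ℕ) : ℕ := (unA n 0).2

theorem prA_zero (acc : ℕ) : prA 0 acc = acc := by rw [prA]; simp
theorem prA_pos {a : ℕ} (h : a ≠ 0) (acc : ℕ) :
    prA a acc = prA (a / 2) (4 * acc + 2 * (a % 2) + 1) := by rw [prA]; simp [h]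
theorem unA_even {n : ℕ} (h : n % 2 = 0) (r : ℕ) : unA n r = (r, n / 2) := by rw [unA]; simp [h]
theorem unA_odd {n : ℕ} (h : n % 2 ≠ 0) (r : ℕ) :
    unA n r = unA (n / 4) (2 * r + n / 2 % 2) := by rw [unA, dif_neg h]

theorem unA_prA (a : ℕ) : ∀ acc, unA (prA a acc) 0 = unA acc a := by
  induction a using Nat.strong_induction_on with
  | _ a ih =>
    intro acc
    by_cases h : a = 0
    · subst h; rw [prA_zero]
    · rw [prA_pos h, ih _ (by omega), unA_odd (by omega)]
      congr 1 <;> omega

@[simp] theorem fstN_pr (a b : ℕ) : fstN (pr a b) = a := by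
  rw [fstN, pr, unA_prA, unA_even (by omega)]
@[simp] theorem sndN_pr (a b : ℕ) : sndN (pr a b) = b := by
  rw [sndN, pr, unA_prA, unA_even (by omega)]; simp

theorem pr_inj {a b c d : ℕ} (h : pr a b = pr c d) : a = c ∧ b = d :=
  ⟨by simpa using congrArg fstN h, by simpa using congrArg sndN h⟩

theorem size_half {a : ℕ} (h : a ≠ 0) : Nat.size a = Nat.size (a / 2) + 1 := by
  have h1 : a = Nat.bit (a % 2 == 1) (a / 2) := by
    rcases Nat.mod_two_eq_zero_or_one a with h2 | h2 <;> simp [Nat.bit, h2] <;> omega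
  rw [h1, Nat.size_bit (h1 ▸ h)]
  congr 2
  rw [← h1]

theorem size_prA (a : ℕ) : ∀ acc, Nat.size (prA a acc) ≤ 2 * Nat.size a + Nat.size acc := by
  induction a using Nat.strong_induction_on with
  | _ a ih =>
    intro acc
    by_cases h : a = 0
    · subst h; rw [prA_zero]; omega
    · rw [prA_pos h, size_half h]
      have h1 := ih (a / 2) (by omega) (4 * acc + 2 * (a % 2) + 1)
      have h2 : Nat.size (4 * acc + 2 * (a % 2) + 1) ≤ Nat.size acc + 2 := by
        rw [Nat.size_le, pow_add]
        have := Nat.lt_size_self acc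
        omega
      omega

theorem size_pr (a b : ℕ) : Nat.size (pr a b) ≤ 2 * Nat.size a + Nat.size b + 1 := by
  have h1 := size_prA a (2 * b)
  have h2 : Nat.size (2 * b) ≤ Nat.size b + 1 := by
    rw [Nat.size_le, pow_add]
    have := Nat.lt_size_self b
    omega
  unfold pr; omega

theorem size_succ (a : ℕ) : Nat.size (a + 1) ≤ Nat.size a + 1 := by
  rw [Nat.size_le, pow_add]
  have := Nat.lt_size_self a
  omega

/-- Push the parity of the top of `m` on `y`. -/
def parL : List (A2 K) := [.dup .m .y, .dup .m .m, .half .m, .dup .m .m, .sub .y .m, .sub .y .m]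

theorem par_eq (n : ℕ) (m x y z : List ℕ) :
    parL.foldl (fun s a => act2 a s) (st (n :: m) x y z) = st (n :: m) x (n % 2 :: y) z := by
  simp [parL, act2]
  congr 2; omega

/-- Pairing loop: first component on `m`, accumulator on `x`. -/
def pairLoop : P2 K := .loop (.nz .m) (acts (parL ++
  [.half .m, .dup .x .x, .add .x .x, .add .x .y, .dup .x .x, .add .x .x, .one .y, .add .x .y]))

theorem run_pairLoop (a : ℕ) : ∀ (acc : ℕ) (m x y z : List ℕ),
    R pairLoop (st (a :: m) (acc :: x) y z) (st (0 :: m) (prA a acc :: x) y z)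
      (17 * Nat.size a + 1) := by
  induction a using Nat.strong_induction_on with
  | _ a ih =>
    intro acc m x y z
    by_cases h : a = 0
    · subst h
      exact (Run.loopF (by simp [tst2])).congr (by rw [prA_zero]) (by simp)
    · refine (Run.loopT (by simp [tst2, h]) (run_acts' _ ?_)
        (ih (a / 2) (by omega) (4 * acc + 2 * (a % 2) + 1) m x y z)).congr (by rw [prA_pos h]) ?_
      · rw [List.foldl_append, par_eq]
        simp [act2]
        congr 2; omega
      · rw [size_half h]; simp [parL]; omega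

/-- Pairing: `a` on `m`, `b` on `x`. -/
def pairP : P2 K := .seq (acts [.dup .x .x, .add .x .x]) (.seq pairLoop (acts [.add .m .x]))

theorem run_pairP (a b : ℕ) (m x y z : List ℕ) :
    R pairP (st (a :: m) (b :: x) y z) (st (pr a b :: m) x y z) (17 * Nat.size a + 8) := by
  refine ((run_acts' (s' := st (a :: m) (2 * b :: x) y z) _ ?_).seq
    ((run_pairLoop a _ m x y z).seq (run_acts' _ ?_))).congr rfl (by simp; omega)
  · simp [act2, two_mul]
  · simp [act2, pr]

/-- Unpairing loop. -/
def unLoop : P2 K := .loop (.nz .y) (acts ([.pop .y, .half .m] ++ parL ++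
  [.half .m, .dup .x .x, .add .x .x, .add .x .y] ++ parL))

theorem run_unLoop (n : ℕ) : ∀ (r : ℕ) (m x y z : List ℕ), ∃ n', n' / 2 = (unA n r).2 ∧
    R unLoop (st (n :: m) (r :: x) (n % 2 :: y) z) (st (n' :: m) ((unA n r).1 :: x) (0 :: y) z)
      (21 * Nat.size n + 1) := by
  induction n using Nat.strong_induction_on with
  | _ n ih =>
    intro r m x y z
    by_cases h : n % 2 = 0
    · refine ⟨n, by rw [unA_even h], (Run.loopF (by simp [tst2, h])).congr ?_ (by simp)⟩
      rw [unA_even h, h]
    · obtain ⟨n', h1, h2⟩ := ih (n / 4) (by omega) (2 * r + n / 2 % 2) m x y z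
      refine ⟨n', by rw [unA_odd h, h1], (Run.loopT (by simp [tst2]; omega) (run_acts' _ ?_)
        h2).congr (by rw [unA_odd h]) ?_⟩
      · rw [List.foldl_append, List.foldl_append, List.foldl_append]
        have e1 : List.foldl (fun s a => act2 a s) (st (n :: m) (r :: x) (n % 2 :: y) z)
            [.pop .y, .half .m] = st (n / 2 :: m) (r :: x) y z := by simp [act2]
        have e2 : List.foldl (fun s a => act2 a s) (st (n / 2 :: m) (r :: x) (n / 2 % 2 :: y) z)
            [.half .m, .dup .x .x, .add .x .x, .add .x .y] =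
            st (n / 4 :: m) ((2 * r + n / 2 % 2) :: x) y z := by
          simp [act2, two_mul, Nat.div_div_eq_div_mul]
        rw [e1, par_eq, e2, par_eq]
      · have h3 : Nat.size (n / 4) ≤ Nat.size (n / 2) := Nat.size_le_size (by omega)
        rw [size_half (a := n) (by omega)]; simp [parL]; omega

/-- Unpairing: second component on `m`, first on `x`. -/
def unP : P2 K := .seq (acts (.zero .x :: parL)) (.seq unLoop (acts [.pop .y, .half .m]))

theorem run_unP (n : ℕ) (m x y z : List ℕ) :
    R unP (st (n :: m) x y z) (st (sndN n :: m) (fstN n :: x) y z) (21 * Nat.size n + 14) := by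
  obtain ⟨n', h1, h2⟩ := run_unLoop n 0 m x y z
  refine ((run_acts' (s' := st (n :: m) (0 :: x) (n % 2 :: y) z) _ ?_).seq
    (h2.seq (run_acts' _ ?_))).congr rfl (by simp [parL]; omega)
  · rw [List.foldl_cons]
    have : act2 (.zero .x) (st (n :: m) x y z) = st (n :: m) (0 :: x) y z := by simp [act2]
    rw [this, par_eq]
  · simp [act2, h1, sndN, fstN]

/-- Types coded by naturals, with a size bound. -/
class Enc (α : Type) where
  enc : α → ℕ
  sz : α → ℕ
  size_le : ∀ a, Nat.size (enc a) ≤ sz a
  inj : Function.Injective enc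

export Enc (enc sz)

instance encNat : Enc ℕ := ⟨fun n => n, Nat.size, fun _ => le_rfl, fun _ _ h => h⟩

instance encUnit : Enc Unit := ⟨fun _ => 0, fun _ => 0, fun _ => by simp, fun _ _ _ => rfl⟩

instance encBool : Enc Bool :=
  ⟨Bool.toNat, fun _ => 1, fun b => by cases b <;> simp, fun a b h => by
    cases a <;> cases b <;> simp_all⟩

open Classical in
noncomputable instance encProp : Enc Prop :=
  ⟨fun p => if p then 1 else 0, fun _ => 1, fun p => by by_cases h : p <;> simp [h],
    fun a b h => by by_cases h1 : a <;> by_cases h2 : b <;> simp_all⟩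

instance encProd {α β : Type} [Enc α] [Enc β] : Enc (α × β) :=
  ⟨fun p => pr (enc p.1) (enc p.2), fun p => 2 * sz p.1 + sz p.2 + 1,
    fun p => by
      have h1 := size_pr (enc p.1) (enc p.2)
      have h2 := Enc.size_le p.1
      have h3 := Enc.size_le p.2
      omega,
    fun a b h => Prod.ext (Enc.inj (pr_inj h).1) (Enc.inj (pr_inj h).2)⟩

/-- Code of a list. -/
def encLi {α : Type} [Enc α] : List α → ℕ
  | [] => 0
  | a :: l => pr (enc a) (encLi l) + 1

/-- Size of a list. -/
def szLi {α : Type} [Enc α] : List α → ℕ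
  | [] => 0
  | a :: l => 2 * sz a + szLi l + 2

instance encList {α : Type} [Enc α] : Enc (List α) :=
  ⟨encLi, szLi,
    fun l => by
      induction l with
      | nil => simp [encLi]
      | cons a l ih =>
        have h1 := size_pr (enc a) (encLi l)
        have h2 := Enc.size_le a
        have h3 := size_succ (pr (enc a) (encLi l))
        simp only [encLi, szLi]; omega,
    fun a => by
      induction a with
      | nil => intro b h; cases b <;> simp_all [encLi]
      | cons x a ih =>
        intro b h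
        cases b with
        | nil => simp [encLi] at h
        | cons y b =>
          simp only [encLi, add_left_inj] at h
          rw [Enc.inj (pr_inj h).1, ih (pr_inj h).2]⟩

instance encOption {α : Type} [Enc α] : Enc (Option α) :=
  ⟨fun o => o.elim 0 (fun a => enc a + 1), fun o => o.elim 0 (fun a => sz a + 1),
    fun o => by
      cases o with
      | none => simp
      | some a =>
        have h1 := size_succ (enc a)
        have h2 := Enc.size_le a
        simp only [Option.elim_some]; omega,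
    fun a b h => by
      cases a <;> cases b <;> simp_all
      exact Enc.inj h⟩

section
variable {α β γ : Type} [Enc α] [Enc β] [Enc γ]

@[simp] theorem enc_nat (n : ℕ) : enc n = n := rfl
theorem sz_nat (n : ℕ) : sz n = Nat.size n := rfl
theorem sz_nat_le (n : ℕ) : sz n ≤ n := by
  rw [sz_nat, Nat.size_le]; exact Nat.lt_two_pow_self
theorem sz_nat_mono {a b : ℕ} (h : a ≤ b) : sz a ≤ sz b := Nat.size_le_size h
@[simp] theorem sz_bool (b : Bool) : sz b = 1 := rfl
@[simp] theorem sz_prop (b : Prop) : sz b = 1 := rfl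
@[simp] theorem sz_unit (b : Unit) : sz b = 0 := rfl
@[simp] theorem enc_pair (a : α) (b : β) : enc (a, b) = pr (enc a) (enc b) := rfl
theorem sz_prod (p : α × β) : sz p = 2 * sz p.1 + sz p.2 + 1 := rfl
@[simp] theorem sz_pair (a : α) (b : β) : sz (a, b) = 2 * sz a + sz b + 1 := rfl
@[simp] theorem enc_nil : enc ([] : List α) = 0 := rfl
@[simp] theorem enc_cons (a : α) (l : List α) : enc (a :: l) = pr (enc a) (enc l) + 1 := rfl
@[simp] theorem sz_nil : sz ([] : List α) = 0 := rfl
@[simp] theorem sz_cons (a : α) (l : List α) : sz (a :: l) = 2 * sz a + sz l + 2 := rfl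
@[simp] theorem enc_none : enc (none : Option α) = 0 := rfl
@[simp] theorem enc_some (a : α) : enc (some a) = enc a + 1 := rfl
@[simp] theorem sz_none : sz (none : Option α) = 0 := rfl
@[simp] theorem sz_some (a : α) : sz (some a) = sz a + 1 := rfl

/-- Polynomially bounded in the size of the argument. -/
def PB (g : α → ℕ) : Prop := ∃ Q : Polynomial ℕ, ∀ a, g a ≤ Q.eval (sz a)

theorem eval_mono (Q : Polynomial ℕ) {a b : ℕ} (h : a ≤ b) : Q.eval a ≤ Q.eval b := by
  induction Q using Polynomial.induction_on' with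
  | add p q hp hq => simp only [Polynomial.eval_add]; omega
  | monomial n c =>
    simp only [Polynomial.eval_monomial]
    exact Nat.mul_le_mul_left _ (Nat.pow_le_pow_left h _)

theorem PB.const (c : ℕ) : PB (fun _ : α => c) := ⟨Polynomial.C c, fun _ => by simp⟩
theorem PB.sz : PB (fun a : α => sz a) := ⟨Polynomial.X, fun _ => by simp⟩
theorem PB.add {f g : α → ℕ} (hf : PB f) (hg : PB g) : PB (fun a => f a + g a) := by
  obtain ⟨P, hP⟩ := hf
  obtain ⟨Q, hQ⟩ := hg
  exact ⟨P + Q, fun a => by rw [Polynomial.eval_add]; exact Nat.add_le_add (hP a) (hQ a)⟩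
theorem PB.mul {f g : α → ℕ} (hf : PB f) (hg : PB g) : PB (fun a => f a * g a) := by
  obtain ⟨P, hP⟩ := hf
  obtain ⟨Q, hQ⟩ := hg
  exact ⟨P * Q, fun a => by rw [Polynomial.eval_mul]; exact Nat.mul_le_mul (hP a) (hQ a)⟩
theorem PB.pow {f : α → ℕ} (hf : PB f) (k : ℕ) : PB (fun a => f a ^ k) := by
  obtain ⟨P, hP⟩ := hf
  exact ⟨P ^ k, fun a => by rw [Polynomial.eval_pow]; exact Nat.pow_le_pow_left (hP a) k⟩
theorem PB.of_le {f g : α → ℕ} (hg : PB g) (h : ∀ a, f a ≤ g a) : PB f := by
  obtain ⟨Q, hQ⟩ := hg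
  exact ⟨Q, fun a => (h a).trans (hQ a)⟩
theorem PB.eval {f : α → ℕ} (hf : PB f) (Q : Polynomial ℕ) : PB (fun a => Q.eval (f a)) := by
  obtain ⟨P, hP⟩ := hf
  exact ⟨Q.comp P, fun a => by rw [Polynomial.eval_comp]; exact eval_mono Q (hP a)⟩
theorem PB.comp' {g : β → ℕ} {f : α → β} (hg : PB g) (hf : PB (fun a => Enc.sz (f a))) :
    PB (fun a => g (f a)) := by
  obtain ⟨Q, hQ⟩ := hg
  exact (hf.eval Q).of_le (fun a => hQ _)
/-- A polynomial in the size is polynomially bounded: linear and quadratic shapes. -/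
theorem PB.lin {f : α → ℕ} (hf : PB f) (a b : ℕ) : PB (fun x => a * f x + b) :=
  ((PB.const a).mul hf).add (PB.const b)

/-- `p` turns `n` on top of the main stack into `r` within `t` steps. -/
def Cmp (p : P2 K) (n r t : ℕ) : Prop :=
  ∀ m x y z, R p (st (n :: m) x y z) (st (r :: m) x y z) t

/-- Polynomial-time functions between coded types. -/
@[fun_prop]
def PT (f : α → β) : Prop :=
  PB (fun a => sz (f a)) ∧ ∃ (p : P2 K) (T : α → ℕ), PB T ∧ ∀ a, Cmp p (enc a) (enc (f a)) (T a)

theorem PT.szb {f : α → β} (hf : PT f) : PB (fun a => sz (f a)) := hf.1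

theorem PB.comp {g : β → ℕ} {f : α → β} (hg : PB g) (hf : PT f) : PB (fun a => g (f a)) :=
  hg.comp' hf.1

theorem Cmp.size_le {p : P2 K} {n r t : ℕ} (h : Cmp p n r t) : Nat.size r ≤ Nat.size n + t := by
  have h1 := (sim2 bd (h [] [] [] []) (Nat.size n) (by
    intro k x hx
    cases k <;> simp at hx
    subst hx; exact Nat.lt_size_self _)).1 .m r (by simp)
  rwa [Nat.size_le]

theorem PT.of_cmp {f : α → ℕ} (p : P2 K) (T : α → ℕ) (hT : PB T)
    (h : ∀ a, Cmp p (enc a) (f a) (T a)) : PT f :=
  ⟨(PB.sz.add hT).of_le (fun a => (h a).size_le.trans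
    (Nat.add_le_add_right (Enc.size_le a) _)), p, T, hT, h⟩

theorem PT.of_enc {f : α → β} {g : α → ℕ} (hg : PT g) (h : ∀ a, enc (f a) = g a)
    (hs : PB (fun a => sz (f a))) : PT f := by
  obtain ⟨-, p, T, hT, hp⟩ := hg
  exact ⟨hs, p, T, hT, fun a => by rw [h a]; exact hp a⟩

theorem PT.congr {f g : α → β} (hf : PT f) (h : ∀ a, g a = f a) : PT g := by
  have : g = f := funext h
  rwa [this]

@[fun_prop] theorem PT.id : PT (fun a : α => a) :=
  ⟨PB.sz, acts [], fun _ => 2, PB.const 2, fun _ _ _ _ _ => run_acts' [] rfl⟩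

@[fun_prop] theorem PT.comp {g : β → γ} {f : α → β} (hg : PT g) (hf : PT f) :
    PT (fun a => g (f a)) := by
  obtain ⟨h1, q, U, hU, hq⟩ := hg
  refine ⟨h1.comp hf, ?_⟩
  obtain ⟨h2, p, T, hT, hp⟩ := hf
  exact ⟨.seq p q, fun a => T a + U (f a), hT.add (hU.comp' h2),
    fun a m x y z => (hp a m x y z).seq (hq (f a) m x y z)⟩

theorem PT.encN {f : α → β} (hf : PT f) : PT (fun a => enc (f a)) := by
  obtain ⟨-, p, T, hT, hp⟩ := hf
  exact PT.of_cmp p T hT hp

/-- Build a constant. -/
def constP : ℕ → P2 K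
  | 0 => acts [.pop .m, .zero .m]
  | n + 1 => .seq (constP n) (acts [.one .m, .add .m .m])

theorem cmp_constP (c n : ℕ) : Cmp (constP c) n c (4 * c + 4) := by
  intro m x y z
  induction c with
  | zero => exact run_acts' _ (by simp [act2])
  | succ c ih => exact (ih.seq (run_acts' _ (by simp [act2]))).congr rfl (by simp; omega)

@[fun_prop] theorem PT.const (b : β) : PT (fun _ : α => b) :=
  ⟨PB.const _, constP (enc b), fun _ => _, PB.const _, fun _ => cmp_constP _ _⟩

/-- Evaluate two functions: the value of `q` lands on `m`, the value of `p` on `x`. -/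
def both (p q : P2 K) : P2 K :=
  .seq (acts [.dup .m .m]) (.seq p (.seq (acts [.dup .m .x, .pop .m]) q))

theorem run_both {p q : P2 K} {n r r' t t' : ℕ} (hp : Cmp p n r t) (hq : Cmp q n r' t')
    (m x y z : List ℕ) :
    R (both p q) (st (n :: m) x y z) (st (r' :: m) (r :: x) y z) (t + t' + 7) := by
  refine ((run_acts' (s' := st (n :: n :: m) x y z) _ (by simp [act2])).seq
    ((hp (n :: m) x y z).seq ((run_acts' (s' := st (n :: m) (r :: x) y z) _
      (by simp [act2])).seq (hq m (r :: x) y z)))).congr rfl (by simp; omega)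

theorem PT.bin {f g : α → ℕ} (hf : PT f) (hg : PT g) (op : ℕ → ℕ → ℕ) (w : P2 K) (c : ℕ)
    (hw : ∀ a b m x y z, R w (st (a :: m) (b :: x) y z) (st (op a b :: m) x y z)
      (c * Nat.size a + c)) : PT (fun a => op (f a) (g a)) := by
  obtain ⟨h1, p, T, hT, hp⟩ := hf
  obtain ⟨-, q, U, hU, hq⟩ := hg
  exact PT.of_cmp (.seq (both q p) w) (fun a => U a + T a + 7 + (c * Nat.size (f a) + c))
    (((hU.add hT).add (PB.const 7)).add (h1.lin c c))
    (fun a m x y z => (run_both (hq a) (hp a) m x y z).seq (hw _ _ m x y z))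

@[fun_prop] theorem PT.add {f g : α → ℕ} (hf : PT f) (hg : PT g) : PT (fun a => f a + g a) :=
  PT.bin hf hg (fun a b => a + b) (acts [.add .m .x]) 3
    (fun a b m x y z => (run_acts' _ (by simp [act2])).weaken (by simp))

@[fun_prop] theorem PT.sub {f g : α → ℕ} (hf : PT f) (hg : PT g) : PT (fun a => f a - g a) :=
  PT.bin hf hg (fun a b => a - b) (acts [.sub .m .x]) 3
    (fun a b m x y z => (run_acts' _ (by simp [act2])).weaken (by simp))

theorem PT.pr {f g : α → ℕ} (hf : PT f) (hg : PT g) : PT (fun a => pr (f a) (g a)) :=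
  PT.bin hf hg PolyTime.pr pairP 17
    (fun a b m x y z => (run_pairP a b m x y z).weaken (by omega))

theorem PT.half {f : α → ℕ} (hf : PT f) : PT (fun a => f a / 2) :=
  PT.comp (g := fun n : ℕ => n / 2) (PT.of_cmp (acts [.half .m]) (fun _ => 3) (PB.const 3)
    (fun a m x y z => run_acts' _ (by simp [act2]))) hf

theorem PT.fstN {f : α → ℕ} (hf : PT f) : PT (fun a => fstN (f a)) :=
  PT.comp (g := PolyTime.fstN) (PT.of_cmp (.seq unP (acts [.pop .m, .dup .x .m, .pop .x]))
    (fun n => 21 * sz n + 19) (PB.sz.lin 21 19)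
    (fun a m x y z => ((run_unP a m x y z).seq (run_acts' _ (by simp [act2]))).congr rfl
      (by simp [sz_nat]))) hf

theorem PT.sndN {f : α → ℕ} (hf : PT f) : PT (fun a => sndN (f a)) :=
  PT.comp (g := PolyTime.sndN) (PT.of_cmp (.seq unP (acts [.pop .x]))
    (fun n => 21 * sz n + 19) (PB.sz.lin 21 19)
    (fun a m x y z => ((run_unP a m x y z).seq (run_acts' _ (by simp [act2]))).congr rfl
      (by simp [sz_nat]))) hf

theorem PT.ifz {c : α → ℕ} {f g : α → β} (hc : PT c) (hf : PT f) (hg : PT g) :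
    PT (fun a => if c a = 0 then f a else g a) := by
  obtain ⟨-, w, V, hV, hw⟩ := hc
  obtain ⟨h1, p, T, hT, hp⟩ := hf
  obtain ⟨h2, q, U, hU, hq⟩ := hg
  refine ⟨(h1.add h2).of_le (fun a => by beta_reduce; split_ifs <;> omega),
    .seq (acts [.dup .m .m]) (.seq w (.ite (.nz .m) (.seq (acts [.pop .m]) q)
      (.seq (acts [.pop .m]) p))), fun a => V a + T a + U a + 7,
    ((hV.add hT).add hU).add (PB.const 7), fun a m x y z => ?_⟩
  have h0 : R (acts [.dup .m .m]) (st (enc a :: m) x y z) (st (enc a :: enc a :: m) x y z) 3 :=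
    run_acts' _ (by simp [act2])
  have h3 : R (acts [.pop .m]) (st (enc (c a) :: enc a :: m) x y z) (st (enc a :: m) x y z) 3 :=
    run_acts' _ (by simp [act2])
  by_cases h : c a = 0
  · exact (h0.seq ((hw a _ x y z).seq (Run.iteF (by simp [tst2, h])
      (h3.seq (hp a m x y z))))).congr (by simp [h]) (by beta_reduce; omega)
  · exact (h0.seq ((hw a _ x y z).seq (Run.iteT (by simp [tst2, h])
      (h3.seq (hq a m x y z))))).congr (by simp [h]) (by beta_reduce; omega)

/-- While loop with polynomially many rounds and polynomially bounded states. -/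
theorem PT.whileLoop {F : β → β} {c : β → ℕ} {i : α → β} {N B : α → ℕ} (hF : PT F) (hc : PT c)
    (hi : PT i) (hN : PB N) (hB : PB B) (h1 : ∀ a, ∀ k < N a, c (F^[k] (i a)) ≠ 0)
    (h2 : ∀ a, c (F^[N a] (i a)) = 0) (h3 : ∀ a, ∀ k ≤ N a, sz (F^[k] (i a)) ≤ B a) :
    PT (fun a => F^[N a] (i a)) := by
  obtain ⟨-, p, T, ⟨P, hP⟩, hp⟩ := hF
  obtain ⟨-, w, V, ⟨Q, hQ⟩, hw⟩ := hc
  obtain ⟨-, q, U, hU, hq⟩ := hi
  let lp : P2 K := .loop (.nz .m) (.seq (acts [.pop .m]) (.seq p (.seq (acts [.dup .m .m]) w)))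
  have key : ∀ (n b : ℕ) (s : β), (∀ k < n, c (F^[k] s) ≠ 0) → c (F^[n] s) = 0 →
      (∀ k ≤ n, sz (F^[k] s) ≤ b) → ∀ m x y z, R lp (st (c s :: enc s :: m) x y z)
        (st (0 :: enc (F^[n] s) :: m) x y z) (n * (P.eval b + Q.eval b + 7) + 1) := by
    intro n b
    induction n with
    | zero =>
      intro s _ e2 _ m x y z
      have e : c s = 0 := e2
      exact (Run.loopF (by simp [tst2, e])).congr (by simp [e]) (by simp)
    | succ n ih =>
      intro s e1 e2 e3 m x y z
      have e0 : c s ≠ 0 := e1 0 (by omega)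
      have a1 : R (acts [.pop .m]) (st (c s :: enc s :: m) x y z) (st (enc s :: m) x y z) 3 :=
        run_acts' _ (by simp [act2])
      have a2 : R (acts [.dup .m .m]) (st (enc (F s) :: m) x y z)
          (st (enc (F s) :: enc (F s) :: m) x y z) 3 := run_acts' _ (by simp [act2])
      have b1 : T s ≤ P.eval b := (hP s).trans (eval_mono P (e3 0 (by omega)))
      have b2 : V (F s) ≤ Q.eval b := (hQ _).trans (eval_mono Q (e3 1 (by omega)))
      refine (Run.loopT (by simp [tst2, e0])
        (a1.seq ((hp s m x y z).seq (a2.seq (hw (F s) _ x y z))))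
        (ih (F s) (fun k hk => e1 (k + 1) (by omega)) e2
          (fun k hk => e3 (k + 1) (by omega)) m x y z)).congr rfl ?_
      rw [add_mul]; omega
  refine ⟨hB.of_le (fun a => h3 a _ le_rfl),
    .seq q (.seq (acts [.dup .m .m]) (.seq w (.seq lp (acts [.pop .m])))),
    fun a => U a + (3 + (Q.eval (B a) + (N a * (P.eval (B a) + Q.eval (B a) + 7) + 1 + 3))),
    hU.add ((PB.const 3).add ((hB.eval Q).add (((hN.mul (((hB.eval P).add (hB.eval Q)).add
      (PB.const 7))).add (PB.const 1)).add (PB.const 3)))), fun a m x y z => ?_⟩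
  have a2 : R (acts [.dup .m .m]) (st (enc (i a) :: m) x y z)
      (st (enc (i a) :: enc (i a) :: m) x y z) 3 := run_acts' _ (by simp [act2])
  have b2 : V (i a) ≤ Q.eval (B a) := (hQ _).trans (eval_mono Q (h3 a 0 (by omega)))
  exact (hq a m x y z).seq (a2.seq (((hw (i a) _ x y z).weaken b2).seq
    ((key (N a) (B a) (i a) (h1 a) (h2 a) (h3 a) m x y z).seq (run_acts' _ (by simp [act2])))))

end

end Vale.Agent.Lib.PolyTime
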