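import Vale.Agent.Lib.PolyTime.Core

/-! Closure properties of polynomial-time functions: pairs, propositions, lists, folds. -/

namespace Vale.Agent.Lib.PolyTime

variable {α β γ σ : Type} [Enc α] [Enc β] [Enc γ] [Enc σ]

@[fun_prop] theorem PT.mk {f : α → β} {g : α → γ} (hf : PT f) (hg : PT g) :
    PT (fun a => (f a, g a)) :=
  PT.of_enc (hf.encN.pr hg.encN) (fun _ => rfl)
    (((hf.1.lin 2 1).add hg.1).of_le (fun a => by rw [sz_pair]; omega))

@[fun_prop] theorem PT.fst {f : α → β × γ} (hf : PT f) : PT (fun a => (f a).1) :=
  PT.of_enc hf.encN.fstN (fun a => (fstN_pr _ _).symm)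
    (hf.1.of_le (fun a => by rw [sz_prod]; omega))

@[fun_prop] theorem PT.snd {f : α → β × γ} (hf : PT f) : PT (fun a => (f a).2) :=
  PT.of_enc hf.encN.sndN (fun a => (sndN_pr _ _).symm)
    (hf.1.of_le (fun a => by rw [sz_prod]; omega))

theorem PT.prop_iff {p : α → Prop} [DecidablePred p] :
    PT p ↔ PT (fun a => if p a then 1 else 0) := by
  constructor
  · intro h
    refine h.encN.congr (fun a => ?_)
    by_cases h : p a <;> simp [h, Enc.enc]
  · intro h
    refine PT.of_enc h (fun a => ?_) (PB.const 1)
    by_cases h : p a <;> simp [h, Enc.enc]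

@[fun_prop] theorem PT.ite {p : α → Prop} [DecidablePred p] {f g : α → β} (hp : PT p) (hf : PT f)
    (hg : PT g) : PT (fun a => if p a then f a else g a) := by
  refine (PT.ifz (PT.prop_iff.1 hp) hg hf).congr (fun a => ?_)
  by_cases h : p a <;> simp [h]

@[fun_prop] theorem PT.le {f g : α → ℕ} (hf : PT f) (hg : PT g) : PT (fun a => f a ≤ g a) := by
  rw [PT.prop_iff]
  refine (PT.ifz (hf.sub hg) (PT.const 1) (PT.const 0)).congr (fun a => ?_)
  simp only [Nat.sub_eq_zero_iff_le]

@[fun_prop] theorem PT.lt {f g : α → ℕ} (hf : PT f) (hg : PT g) : PT (fun a => f a < g a) :=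
  PT.le (f := fun a => f a + 1) (by fun_prop) hg

@[fun_prop] theorem PT.eq {f g : α → β} (hf : PT f) (hg : PT g) : PT (fun a => f a = g a) := by
  classical
  rw [PT.prop_iff]
  refine (PT.ifz ((hf.encN.sub hg.encN).add (hg.encN.sub hf.encN)) (PT.const 1)
    (PT.const 0)).congr (fun a => ?_)
  by_cases h : f a = g a
  · simp [h]
  · have : enc (f a) ≠ enc (g a) := fun e => h (Enc.inj e)
    rw [if_neg h, if_neg (by omega)]

@[fun_prop] theorem PT.not {p : α → Prop} (hp : PT p) : PT (fun a => ¬ p a) := by
  classical
  refine (PT.ite hp (PT.const False) (PT.const True)).congr (fun a => ?_)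
  by_cases h : p a <;> simp [h]

@[fun_prop] theorem PT.ne {f g : α → β} (hf : PT f) (hg : PT g) : PT (fun a => f a ≠ g a) :=
  PT.not (PT.eq hf hg)

@[fun_prop] theorem PT.and {p q : α → Prop} (hp : PT p) (hq : PT q) : PT (fun a => p a ∧ q a) := by
  classical
  refine (PT.ite hp hq (PT.const False)).congr (fun a => ?_)
  by_cases h : p a <;> simp [h]

@[fun_prop] theorem PT.or {p q : α → Prop} (hp : PT p) (hq : PT q) : PT (fun a => p a ∨ q a) := by
  classical
  refine (PT.ite hp (PT.const True) hq).congr (fun a => ?_)
  by_cases h : p a <;> simp [h]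

@[fun_prop] theorem PT.decide {p : α → Prop} [DecidablePred p] (hp : PT p) :
    PT (fun a => decide (p a)) := by
  refine (PT.ite hp (PT.const true) (PT.const false)).congr (fun a => ?_)
  by_cases h : p a <;> simp [h]

@[fun_prop] theorem PT.cond {c : α → Bool} {f g : α → β} (hc : PT c) (hf : PT f) (hg : PT g) :
    PT (fun a => bif c a then f a else g a) := by
  have : PT (fun a => if c a = true then f a else g a) := by fun_prop
  refine this.congr (fun a => ?_)
  cases c a <;> simp

@[fun_prop] theorem PT.band {c d : α → Bool} (hc : PT c) (hd : PT d) :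
    PT (fun a => (c a && d a)) := by
  have : PT (fun a => if c a = true then d a else false) := by fun_prop
  refine this.congr (fun a => ?_)
  cases c a <;> simp

@[fun_prop] theorem PT.bor {c d : α → Bool} (hc : PT c) (hd : PT d) :
    PT (fun a => (c a || d a)) := by
  have : PT (fun a => if c a = true then true else d a) := by fun_prop
  refine this.congr (fun a => ?_)
  cases c a <;> simp

@[fun_prop] theorem PT.bnot {c : α → Bool} (hc : PT c) : PT (fun a => (!c a)) := by
  have : PT (fun a => if c a = true then false else true) := by fun_prop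
  refine this.congr (fun a => ?_)
  cases c a <;> simp

@[fun_prop] theorem PT.max {f g : α → ℕ} (hf : PT f) (hg : PT g) :
    PT (fun a => max (f a) (g a)) := by
  have : PT (fun a => if f a ≤ g a then g a else f a) := by fun_prop
  refine this.congr (fun a => ?_)
  split_ifs <;> omega

@[fun_prop] theorem PT.min {f g : α → ℕ} (hf : PT f) (hg : PT g) :
    PT (fun a => min (f a) (g a)) := by
  have : PT (fun a => if f a ≤ g a then f a else g a) := by fun_prop
  refine this.congr (fun a => ?_)
  split_ifs <;> omega

@[fun_prop] theorem PT.cons {f : α → β} {l : α → List β} (hf : PT f) (hl : PT l) :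
    PT (fun a => f a :: l a) :=
  PT.of_enc ((hf.encN.pr hl.encN).add (PT.const 1)) (fun _ => rfl)
    (((hf.1.lin 2 2).add hl.1).of_le (fun a => by simp; omega))

theorem sz_tail (l : List β) : sz l.tail ≤ sz l := by cases l <;> simp; omega

@[fun_prop] theorem PT.tail {l : α → List β} (hl : PT l) : PT (fun a => (l a).tail) :=
  PT.of_enc (PT.ifz hl.encN (PT.const 0) (hl.encN.sub (PT.const 1)).sndN)
    (fun a => by cases l a <;> simp) (hl.1.of_le (fun _ => sz_tail _))

@[fun_prop] theorem PT.headD {l : α → List β} {d : α → β} (hl : PT l) (hd : PT d) :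
    PT (fun a => (l a).headD (d a)) :=
  PT.of_enc (PT.ifz hl.encN hd.encN (hl.encN.sub (PT.const 1)).fstN)
    (fun a => by cases l a <;> simp)
    ((hl.1.add hd.1).of_le (fun a => by cases l a <;> simp; omega))

@[fun_prop] theorem PT.headI [Inhabited β] {l : α → List β} (hl : PT l) :
    PT (fun a => (l a).headI) := by
  refine (hl.headD (PT.const default)).congr (fun a => ?_)
  cases l a <;> simp

@[fun_prop] theorem PT.some {f : α → β} (hf : PT f) : PT (fun a => some (f a)) :=
  PT.of_enc (hf.encN.add (PT.const 1)) (fun _ => rfl) (hf.1.add (PB.const 1))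

@[fun_prop] theorem PT.getD {o : α → Option β} {d : α → β} (ho : PT o) (hd : PT d) :
    PT (fun a => (o a).getD (d a)) :=
  PT.of_enc (PT.ifz ho.encN hd.encN (ho.encN.sub (PT.const 1)))
    (fun a => by cases o a <;> simp)
    ((ho.1.add hd.1).of_le (fun a => by cases o a <;> simp; omega))

@[fun_prop] theorem PT.head? {l : α → List β} (hl : PT l) : PT (fun a => (l a).head?) :=
  PT.of_enc (PT.ifz hl.encN (PT.const 0) ((hl.encN.sub (PT.const 1)).fstN.add (PT.const 1)))
    (fun a => by cases l a <;> simp)
    (hl.1.of_le (fun a => by cases l a <;> simp; omega))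

@[fun_prop] theorem PT.isSome {o : α → Option β} (ho : PT o) : PT (fun a => (o a).isSome) := by
  classical
  have : PT (fun a => if o a = none then false else true) := by fun_prop
  refine this.congr (fun a => ?_)
  cases o a <;> simp

@[fun_prop] theorem PT.isEmpty {l : α → List β} (hl : PT l) : PT (fun a => (l a).isEmpty) := by
  classical
  have : PT (fun a => if l a = [] then true else false) := by fun_prop
  refine this.congr (fun a => ?_)
  cases l a <;> simp

theorem length_le_sz (l : List β) : l.length ≤ sz l := by
  induction l with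
  | nil => simp
  | cons a l ih => simp; omega

theorem sz_append (l l' : List β) : sz (l ++ l') = sz l + sz l' := by
  induction l with
  | nil => simp
  | cons a l ih => simp [ih]; omega

theorem sz_eq_sum (l : List β) : sz l = (l.map (fun b => 2 * sz b + 2)).sum := by
  induction l with
  | nil => simp
  | cons a l ih => simp [ih]; omega

theorem sz_perm {l l' : List β} (h : l.Perm l') : sz l = sz l' := by
  rw [sz_eq_sum, sz_eq_sum]; exact (h.map _).sum_eq

theorem sz_reverse (l : List β) : sz l.reverse = sz l := sz_perm (List.reverse_perm l)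

theorem sz_sublist {l l' : List β} (h : l.Sublist l') : sz l ≤ sz l' := by
  induction h with
  | slnil => simp
  | cons a _ ih => simp; omega
  | cons_cons a _ ih => simp; omega

theorem sz_mem {l : List β} {b : β} (h : b ∈ l) : sz b ≤ sz l := by
  induction l with
  | nil => simp at h
  | cons a l ih =>
    rcases List.mem_cons.1 h with rfl | h
    · simp; omega
    · have := ih h; simp; omega

theorem sz_le_of_forall {l : List β} {b : ℕ} (h : ∀ y ∈ l, sz y ≤ b) :
    sz l ≤ l.length * (2 * b + 2) := by
  induction l with
  | nil => simp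
  | cons a l ih =>
    have h1 := h a (by simp)
    have h2 := ih (fun y hy => h y (by simp [hy]))
    simp only [sz_cons, List.length_cons, add_mul]; omega

theorem PT.pb_length {l : α → List β} (hl : PT l) : PB (fun a => (l a).length) :=
  hl.1.of_le (fun _ => length_le_sz _)

/-- Left fold with polynomially bounded accumulators. -/
theorem PT.foldl [Inhabited β] {f : α → σ → β → σ} {l : α → List β} {i : α → σ} {B : α → ℕ}
    (hf : PT (fun p : α × σ × β => f p.1 p.2.1 p.2.2)) (hl : PT l) (hi : PT i) (hB : PB B)
    (h : ∀ a k, sz (((l a).take k).foldl (f a) (i a)) ≤ B a) :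
    PT (fun a => (l a).foldl (f a) (i a)) := by
  let F : α × σ × List β → α × σ × List β :=
    fun p => (p.1, f p.1 p.2.1 p.2.2.headI, p.2.2.tail)
  have hF : PT F := by
    have : PT (fun p : α × σ × List β => f p.1 p.2.1 p.2.2.headI) :=
      hf.comp (f := fun p : α × σ × List β => (p.1, p.2.1, p.2.2.headI)) (by fun_prop)
    fun_prop
  have key : ∀ a k, k ≤ (l a).length →
      F^[k] (a, i a, l a) = (a, ((l a).take k).foldl (f a) (i a), (l a).drop k) := by
    intro a k
    induction k with
    | zero => simp
    | succ k ih =>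
      intro hk
      rw [Function.iterate_succ_apply', ih (by omega), List.take_add_one,
        List.getElem?_eq_getElem (by omega), List.drop_eq_getElem_cons (i := k) (by omega)]
      simp only [F, List.headI_cons, List.tail_cons, Option.toList_some, List.foldl_append,
        List.foldl_cons, List.foldl_nil]
  have h1 := PT.whileLoop (c := fun p : α × σ × List β => enc p.2.2) (i := fun a => (a, i a, l a))
    (N := fun a => (l a).length) (B := fun a => 2 * sz a + (2 * B a + sz (l a) + 1) + 1) hF
    (PT.encN (by fun_prop)) (by fun_prop) hl.pb_length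
    (((PB.const 2).mul PB.sz).add (((PB.const 2).mul hB).add hl.1 |>.add (PB.const 1)) |>.add
      (PB.const 1))
    (fun a k hk => by
      rw [key a k hk.le, List.drop_eq_getElem_cons hk]; exact Nat.succ_ne_zero _)
    (fun a => by rw [key a _ le_rfl]; simp)
    (fun a k hk => by
      rw [key a k hk]
      have h2 := h a k
      have h3 := sz_sublist (List.drop_sublist k (l a))
      simp only [sz_pair]; omega)
  refine h1.snd.fst.congr (fun a => ?_)
  rw [key a _ le_rfl]; simp

/-- Left fold whose step enlarges the accumulator by a polynomial amount. -/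
theorem PT.foldl_add [Inhabited β] {f : α → σ → β → σ} {l : α → List β} {i : α → σ} {D : α → ℕ}
    (hf : PT (fun p : α × σ × β => f p.1 p.2.1 p.2.2)) (hl : PT l) (hi : PT i) (hD : PB D)
    (h : ∀ a s, ∀ y ∈ l a, sz (f a s y) ≤ sz s + D a) :
    PT (fun a => (l a).foldl (f a) (i a)) := by
  refine PT.foldl hf hl hi (hi.1.add (hl.pb_length.mul hD)) (fun a k => ?_)
  have key : ∀ (L : List β) (s : σ), (∀ y ∈ L, y ∈ l a) →
      sz (L.foldl (f a) s) ≤ sz s + L.length * D a := by
    intro L
    induction L with
    | nil => simp
    | cons y L ih =>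
      intro s hL
      have h1 := ih (f a s y) (fun z hz => hL z (by simp [hz]))
      have h2 := h a s y (hL y (by simp))
      simp only [List.foldl_cons, List.length_cons, add_mul]; omega
  refine (key _ _ (fun y hy => List.mem_of_mem_take hy)).trans ?_
  exact Nat.add_le_add_left (Nat.mul_le_mul_right _ (by simp)) _

/-- Left fold with an invariant that bounds the size. -/
theorem PT.foldl_inv [Inhabited β] {f : α → σ → β → σ} {l : α → List β} {i : α → σ} {B : α → ℕ}
    (hf : PT (fun p : α × σ × β => f p.1 p.2.1 p.2.2)) (hl : PT l) (hi : PT i) (hB : PB B)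
    (I : α → σ → Prop) (h0 : ∀ a, I a (i a)) (h1 : ∀ a s, ∀ y ∈ l a, I a s → I a (f a s y))
    (h2 : ∀ a s, I a s → sz s ≤ B a) : PT (fun a => (l a).foldl (f a) (i a)) := by
  refine PT.foldl hf hl hi hB (fun a k => h2 a _ ?_)
  have key : ∀ (L : List β) (s : σ), (∀ y ∈ L, y ∈ l a) → I a s → I a (L.foldl (f a) s) := by
    intro L
    induction L with
    | nil => simp
    | cons y L ih =>
      intro s hL hs
      exact ih _ (fun z hz => hL z (by simp [hz])) (h1 a s y (hL y (by simp)) hs)
  exact key _ _ (fun y hy => List.mem_of_mem_take hy) (h0 a)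

/-- A uniform bound for a two-argument function along a list. -/
theorem PB.along {g : α × β → ℕ} {l : α → List β} (hg : PB g) (hl : PT l) :
    ∃ D : α → ℕ, PB D ∧ ∀ a, ∀ y ∈ l a, g (a, y) ≤ D a := by
  obtain ⟨Q, hQ⟩ := hg
  refine ⟨fun a => Q.eval (2 * Enc.sz a + Enc.sz (l a) + 1),
    ((((PB.const 2).mul PB.sz).add hl.1).add (PB.const 1)).eval Q, fun a y hy => ?_⟩
  refine (hQ _).trans (eval_mono Q ?_)
  have := sz_mem hy
  simp only [sz_pair]; omega

@[fun_prop] theorem PT.length [Inhabited β] {l : α → List β} (hl : PT l) :
    PT (fun a => (l a).length) := by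
  have h := PT.foldl_add (f := fun _ (n : ℕ) (_ : β) => n + 1) (i := fun _ => 0) (by fun_prop) hl
    (by fun_prop) (PB.const 1) (fun _ s _ _ => size_succ s)
  refine h.congr (fun a => ?_)
  simp

omit [Enc β] in
theorem foldl_cons_eq (l acc : List β) :
    l.foldl (fun acc y => y :: acc) acc = l.reverse ++ acc := by
  induction l generalizing acc with
  | nil => simp
  | cons a l ih => simp [ih]

theorem PT.revAppend [Inhabited β] {l l' : α → List β} (hl : PT l) (hl' : PT l') :
    PT (fun a => (l a).reverse ++ l' a) := by
  have h := PT.foldl_add (f := fun _ (acc : List β) (y : β) => y :: acc) (by fun_prop) hl hl'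
    (hl.1.lin 2 2) (fun a s y hy => by have := sz_mem hy; simp; omega)
  exact h.congr (fun a => (foldl_cons_eq _ _).symm)

@[fun_prop] theorem PT.reverse [Inhabited β] {l : α → List β} (hl : PT l) :
    PT (fun a => (l a).reverse) :=
  (hl.revAppend (PT.const [])).congr (fun a => by simp)

@[fun_prop] theorem PT.append [Inhabited β] {l l' : α → List β} (hl : PT l) (hl' : PT l') :
    PT (fun a => l a ++ l' a) :=
  (hl.reverse.revAppend hl').congr (fun a => by simp)

@[fun_prop] theorem PT.flatMap [Inhabited β] [Inhabited γ] {f : α → β → List γ} {l : α → List β}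
    (hf : PT (fun p : α × β => f p.1 p.2)) (hl : PT l) : PT (fun a => (l a).flatMap (f a)) := by
  obtain ⟨D, hD, h⟩ := hf.1.along hl
  have h1 : PT (fun p : α × List γ × β => f p.1 p.2.2) :=
    hf.comp (f := fun p : α × List γ × β => (p.1, p.2.2)) (by fun_prop)
  have h2 := PT.foldl_add (f := fun a (acc : List γ) (y : β) => acc ++ f a y) (i := fun _ => [])
    (by fun_prop) hl (by fun_prop) hD
    (fun a s y hy => by rw [sz_append]; exact Nat.add_le_add_left (h a y hy) _)
  refine h2.congr (fun a => ?_)
  simp [List.flatMap_eq_foldl]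

@[fun_prop] theorem PT.map [Inhabited β] [Inhabited γ] {f : α → β → γ} {l : α → List β}
    (hf : PT (fun p : α × β => f p.1 p.2)) (hl : PT l) : PT (fun a => (l a).map (f a)) := by
  have h := PT.flatMap (f := fun a y => [f a y]) (by fun_prop) hl
  exact h.congr (fun a => List.map_eq_flatMap)

@[fun_prop] theorem PT.filter [Inhabited β] {p : α → β → Bool} {l : α → List β}
    (hp : PT (fun q : α × β => p q.1 q.2)) (hl : PT l) : PT (fun a => (l a).filter (p a)) := by
  have h := PT.flatMap (f := fun a y => if p a y = true then [y] else []) (by fun_prop) hl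
  refine h.congr (fun a => ?_)
  induction l a with
  | nil => simp
  | cons y L ih => by_cases hy : p a y = true <;> simp [hy, ih]

@[fun_prop] theorem PT.flatten [Inhabited β] {l : α → List (List β)} (hl : PT l) :
    PT (fun a => (l a).flatten) :=
  (PT.flatMap (f := fun _ y => y) (by fun_prop) hl).congr (fun a => by simp)

@[fun_prop] theorem PT.any [Inhabited β] {p : α → β → Bool} {l : α → List β}
    (hp : PT (fun q : α × β => p q.1 q.2)) (hl : PT l) : PT (fun a => (l a).any (p a)) := by
  have h : PT (fun a => !((l a).filter (p a)).isEmpty) := by fun_prop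
  refine h.congr (fun a => ?_)
  rw [Bool.eq_iff_iff]; simp [List.filter_eq_nil_iff]

@[fun_prop] theorem PT.all [Inhabited β] {p : α → β → Bool} {l : α → List β}
    (hp : PT (fun q : α × β => p q.1 q.2)) (hl : PT l) : PT (fun a => (l a).all (p a)) := by
  have h : PT (fun a => !((l a).any (fun y => !p a y))) := by fun_prop
  refine h.congr (fun a => ?_)
  rw [Bool.eq_iff_iff]; simp

@[fun_prop] theorem PT.mem [Inhabited β] {y : α → β} {l : α → List β} (hy : PT y) (hl : PT l) :
    PT (fun a => y a ∈ l a) := by
  classical
  have h : PT (fun a => (l a).any (fun z => Decidable.decide (z = y a)) = true) := by fun_prop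
  refine h.congr (fun a => ?_)
  simp

@[fun_prop] theorem PT.find? [Inhabited β] {p : α → β → Bool} {l : α → List β}
    (hp : PT (fun q : α × β => p q.1 q.2)) (hl : PT l) : PT (fun a => (l a).find? (p a)) := by
  have h : PT (fun a => ((l a).filter (p a)).head?) := by fun_prop
  exact h.congr (fun a => List.head?_filter.symm)

theorem size_add_le (a b : ℕ) : Nat.size (a + b) ≤ Nat.size a + Nat.size b + 1 := by
  rw [Nat.size_le, pow_add, pow_add]
  have h1 := Nat.lt_size_self a
  have h2 := Nat.lt_size_self b
  have h3 : 2 ^ a.size ≤ 2 ^ a.size * 2 ^ b.size := Nat.le_mul_of_pos_right _ (by positivity)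
  have h4 : 2 ^ b.size ≤ 2 ^ a.size * 2 ^ b.size := Nat.le_mul_of_pos_left _ (by positivity)
  omega

@[fun_prop] theorem PT.sum {l : α → List ℕ} (hl : PT l) : PT (fun a => (l a).sum) := by
  have h := PT.foldl_add (f := fun _ (acc : ℕ) (y : ℕ) => acc + y) (i := fun _ => 0)
    (by fun_prop) hl (by fun_prop) (hl.1.add (PB.const 1)) (fun a s y hy => by
      have h1 := sz_mem hy
      have h2 := size_add_le s y
      simp only [sz_nat] at *; omega)
  exact h.congr (fun a => List.sum_eq_foldl)

/-- Maximum of a list of naturals (zero for the empty list). -/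
def lmax (l : List ℕ) : ℕ := l.foldl max 0

theorem foldl_max_le (l : List ℕ) (a b : ℕ) : l.foldl max a ≤ b ↔ a ≤ b ∧ ∀ x ∈ l, x ≤ b := by
  induction l generalizing a with
  | nil => simp
  | cons y l ih => simp [ih, and_assoc]

theorem lmax_le (l : List ℕ) (b : ℕ) : lmax l ≤ b ↔ ∀ x ∈ l, x ≤ b := by
  simp [lmax, foldl_max_le]

theorem le_lmax {l : List ℕ} {x : ℕ} (h : x ∈ l) : x ≤ lmax l := (lmax_le l _).1 le_rfl x h

@[fun_prop] theorem PT.lmax {l : α → List ℕ} (hl : PT l) : PT (fun a => lmax (l a)) :=
  PT.foldl_add (f := fun _ (acc : ℕ) (y : ℕ) => Max.max acc y) (i := fun _ => 0)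
    (by fun_prop) hl (by fun_prop) hl.1 (fun a s y hy => by
      have h1 := sz_mem hy
      rcases max_choice s y with h | h <;> rw [h] <;> omega)

@[fun_prop] theorem PT.drop [Inhabited β] {n : α → ℕ} {l : α → List β} (hn : PT n) (hl : PT l) :
    PT (fun a => (l a).drop (n a)) := by
  have key : ∀ (L : List β) (s : ℕ × List β), s.2.length ≤ L.length →
      (L.foldl (fun (s : ℕ × List β) (_ : β) =>
        if s.1 = 0 then s else (s.1 - 1, s.2.tail)) s).2 = s.2.drop s.1 := by
    intro L
    induction L with
    | nil => intro s hs; simp at hs; simp [hs]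
    | cons y L ih =>
      intro s hs
      by_cases h : s.1 = 0
      · clear ih hs
        simp only [h, List.drop_zero, List.foldl_cons, if_true]
        induction L with
        | nil => rfl
        | cons z L ih => simpa [h] using ih
      · simp only [List.foldl_cons, if_neg h]
        rw [ih _ (by simp at hs ⊢; omega)]
        obtain ⟨k, hk⟩ := Nat.exists_eq_succ_of_ne_zero h
        simp [hk]
  have h := PT.foldl_add (f := fun _ (s : ℕ × List β) (_ : β) =>
      if s.1 = 0 then s else (s.1 - 1, s.2.tail)) (i := fun a => (n a, l a))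
    (by fun_prop) hl (by fun_prop) (PB.const 0) (fun a s y _ => by
      have h1 := sz_tail s.2
      have h2 : sz (s.1 - 1) ≤ sz s.1 := sz_nat_mono (by omega)
      split_ifs
      · omega
      · rw [sz_prod s]; simp only [sz_pair]; omega)
  exact h.snd.congr (fun a => (key (l a) (n a, l a) le_rfl).symm)

@[fun_prop] theorem PT.take [Inhabited β] {n : α → ℕ} {l : α → List β} (hn : PT n) (hl : PT l) :
    PT (fun a => (l a).take (n a)) := by
  have h : PT (fun a => ((l a).reverse.drop ((l a).length - n a)).reverse) := by fun_prop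
  refine h.congr (fun a => ?_)
  rw [List.drop_reverse, List.reverse_reverse, List.take_eq_take_iff]; omega

@[fun_prop] theorem PT.dropLast [Inhabited β] {l : α → List β} (hl : PT l) :
    PT (fun a => (l a).dropLast) := by
  have h : PT (fun a => (l a).reverse.tail.reverse) := by fun_prop
  refine h.congr (fun a => ?_)
  simp

@[fun_prop] theorem PT.getLastD [Inhabited β] {l : α → List β} {d : α → β} (hl : PT l)
    (hd : PT d) : PT (fun a => (l a).getLastD (d a)) := by
  have h : PT (fun a => (l a).reverse.headD (d a)) := by fun_prop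
  refine h.congr (fun a => ?_)
  simp

@[fun_prop] theorem PT.getLast? [Inhabited β] {l : α → List β} (hl : PT l) :
    PT (fun a => (l a).getLast?) := by
  have h : PT (fun a => (l a).reverse.head?) := by fun_prop
  refine h.congr (fun a => ?_)
  simp

@[fun_prop] theorem PT.lgetD [Inhabited β] {l : α → List β} {n : α → ℕ} {d : α → β} (hl : PT l)
    (hn : PT n) (hd : PT d) : PT (fun a => (l a).getD (n a) (d a)) := by
  have h : PT (fun a => ((l a).drop (n a)).headD (d a)) := by fun_prop
  refine h.congr (fun a => ?_)
  simp

@[fun_prop] theorem PT.isPrefix [Inhabited β] {l l' : α → List β} (hl : PT l) (hl' : PT l') :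
    PT (fun a => l a <+: l' a) := by
  have h : PT (fun a => l a = (l' a).take (l a).length) := by fun_prop
  exact h.congr (fun a => propext List.prefix_iff_eq_take)

@[fun_prop] theorem PT.isSuffix [Inhabited β] {l l' : α → List β} (hl : PT l) (hl' : PT l') :
    PT (fun a => l a <:+ l' a) := by
  have h : PT (fun a => (l a).reverse <+: (l' a).reverse) := by fun_prop
  exact h.congr (fun a => propext List.reverse_prefix.symm)

/-- The indices of a list. -/
def idx (l : List β) : List ℕ := List.range l.length

/-- Bounded iteration count given in binary but polynomially bounded. -/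
theorem PT.range {n : α → ℕ} (hn : PT n) (hb : PB n) : PT (fun a => List.range (n a)) := by
  let F : ℕ × List ℕ → ℕ × List ℕ := fun s => (s.1 - 1, (s.1 - 1) :: s.2)
  have key : ∀ m k, k ≤ m → F^[k] (m, []) = (m - k, List.range' (m - k) k) := by
    intro m k
    induction k with
    | zero => simp
    | succ k ih =>
      intro hk
      rw [Function.iterate_succ_apply', ih (by omega)]
      simp only [F, List.range'_succ]
      rw [show m - (k + 1) + 1 = m - k by omega, show m - k - 1 = m - (k + 1) by omega]
  have h1 := PT.whileLoop (F := F) (c := fun s => s.1) (i := fun a => (n a, []))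
    (N := n) (B := fun a => 2 * n a + n a * (2 * n a + 2) + 1) (by fun_prop) (by fun_prop)
    (by fun_prop) hb ((((PB.const 2).mul hb).add (hb.mul (hb.lin 2 2))).add (PB.const 1))
    (fun a k hk => by rw [key _ k hk.le]; simp; omega)
    (fun a => by rw [key _ _ le_rfl]; simp)
    (fun a k hk => by
      rw [key _ k hk]
      have h2 := sz_le_of_forall (l := List.range' (n a - k) k) (b := n a) (fun y hy => by
        have := sz_nat_le y
        simp at hy; omega)
      have h3 := sz_nat_le (n a - k)
      have h4 : k * (2 * n a + 2) ≤ n a * (2 * n a + 2) := Nat.mul_le_mul_right _ hk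
      simp only [List.length_range'] at h2
      simp only [sz_pair]; omega)
  refine h1.snd.congr (fun a => ?_)
  rw [key _ _ le_rfl]; simp [List.range_eq_range']

@[fun_prop] theorem PT.idx [Inhabited β] {l : α → List β} (hl : PT l) :
    PT (fun a => idx (l a)) := PT.range hl.length hl.pb_length

theorem PT.replicate [Inhabited β] {n : α → ℕ} {y : α → β} (hn : PT n) (hb : PB n) (hy : PT y) :
    PT (fun a => List.replicate (n a) (y a)) := by
  have h1 := PT.range hn hb
  have h : PT (fun a => (List.range (n a)).map (fun _ => y a)) := by fun_prop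
  exact h.congr (fun a => by simp)

/-- Iteration with a polynomially bounded count and polynomially bounded states. -/
theorem PT.iterate {f : α → σ → σ} {n : α → ℕ} {i : α → σ} {B : α → ℕ}
    (hf : PT (fun p : α × σ => f p.1 p.2)) (hn : PT n) (hb : PB n) (hi : PT i) (hB : PB B)
    (h : ∀ a k, k ≤ n a → sz ((f a)^[k] (i a)) ≤ B a) : PT (fun a => (f a)^[n a] (i a)) := by
  have key : ∀ a (L : List ℕ) s, L.foldl (fun s _ => f a s) s = (f a)^[L.length] s := by
    intro a L
    induction L with
    | nil => simp
    | cons y L ih => intro s; simp [ih]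
  have h1 : PT (fun p : α × σ × ℕ => f p.1 p.2.1) :=
    hf.comp (f := fun p : α × σ × ℕ => (p.1, p.2.1)) (by fun_prop)
  have h2 := PT.foldl (f := fun a s (_ : ℕ) => f a s) h1 (PT.range hn hb) hi hB
    (fun a k => by rw [key]; exact h a _ (by simp))
  exact h2.congr (fun a => by rw [key]; simp)

@[fun_prop] theorem PT.isInfix [Inhabited β] {l l' : α → List β} (hl : PT l) (hl' : PT l') :
    PT (fun a => l a <:+: l' a) := by
  classical
  have h : PT (fun a => l a = [] ∨ (PolyTime.idx (l' a)).any
      (fun k => Decidable.decide (l a <+: (l' a).drop k)) = true) := by fun_prop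
  refine h.congr (fun a => propext ?_)
  simp only [PolyTime.idx, List.any_eq_true, List.mem_range, decide_eq_true_eq]
  constructor
  · rintro ⟨s, t, h⟩
    by_cases h0 : l a = []
    · exact Or.inl h0
    · refine Or.inr ⟨s.length, ?_, ?_⟩
      · have := List.length_pos_iff.2 h0
        rw [← h]; simp; omega
      · rw [← h, List.append_assoc, List.drop_left]; exact List.prefix_append _ _
  · rintro (h | ⟨k, -, h⟩)
    · rw [h]; exact List.nil_infix
    · exact h.isInfix.trans (List.drop_suffix k _).isInfix

@[fun_prop] theorem PT.dedup [Inhabited β] [DecidableEq β] {l : α → List β} (hl : PT l) :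
    PT (fun a => (l a).dedup) := by
  have key : ∀ L : List β, L.reverse.foldl (fun acc y => if y ∈ acc then acc else y :: acc) [] =
      L.dedup := by
    intro L
    rw [List.foldl_reverse]
    induction L with
    | nil => simp
    | cons y L ih => rw [List.foldr_cons, ih, List.dedup_cons']
  have h := PT.foldl_add (f := fun _ (acc : List β) (y : β) => if y ∈ acc then acc else y :: acc)
    (i := fun _ => []) (by fun_prop) hl.reverse (by fun_prop) (hl.1.lin 2 2) (fun a s y hy => by
      have := sz_mem (List.mem_reverse.1 hy)
      split_ifs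
      · omega
      · simp; omega)
  exact h.congr (fun a => (key _).symm)

end Vale.Agent.Lib.PolyTime
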