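import Vale.Agent.Lib.PolyTime.Lists

/-! Polynomial-time functions on lists of naturals are computed by Mathlib's stack machines. -/

namespace Vale.Agent.Lib.PolyTime

open Vale.Agent.Lib.StackLang Function

/-- Read the input stack. -/
def inLoop : P2 K := .loop (.ne .z) (.seq (acts [.dup .m .x, .pop .m, .dup .z .m, .pop .z])
  (.seq pairP (acts [.one .m, .add .m .m])))

theorem run_inLoop (i : List ℕ) : ∀ acc : List ℕ,
    R inLoop (st [enc acc] [] [] i) (st [enc (i.reverse ++ acc)] [] [] []) (19 * sz i + 1) := by
  induction i with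
  | nil => intro acc; exact (Run.loopF (by simp [tst2])).congr (by simp) (by simp)
  | cons a i ih =>
    intro acc
    have a1 : R (acts [.dup .m .x, .pop .m, .dup .z .m, .pop .z]) (st [enc acc] [] [] (a :: i))
        (st [a] [enc acc] [] i) 6 := run_acts' _ (by simp [act2])
    have a2 : R (acts [.one .m, .add .m .m]) (st [pr a (enc acc)] [] [] i)
        (st [enc (a :: acc)] [] [] i) 4 := run_acts' _ (by simp [act2])
    refine (Run.loopT (by simp [tst2]) (a1.seq ((run_pairP a _ [] [] [] i).seq a2))
      (ih (a :: acc))).congr (by simp) ?_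
    simp only [sz_cons, sz_nat]; omega

/-- Write the output stack. -/
def outLoop : P2 K := .loop (.nz .m) (.seq (acts [.one .y, .sub .m .y])
  (.seq unP (acts [.dup .x .z, .pop .x])))

theorem run_outLoop (l : List ℕ) : ∀ z : List ℕ,
    R outLoop (st [enc l] [] [] z) (st [0] [] [] (l.reverse ++ z))
      (l.length * (21 * sz l + 23) + 1) := by
  induction l with
  | nil => intro z; exact (Run.loopF (by simp [tst2])).congr (by simp) (by simp)
  | cons a l ih =>
    intro z
    have a1 : R (acts [.one .y, .sub .m .y]) (st [enc (a :: l)] [] [] z)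
        (st [pr a (enc l)] [] [] z) 4 := run_acts' _ (by simp [act2])
    have a2 : R (acts [.dup .x .z, .pop .x]) (st [sndN (pr a (enc l))] [fstN (pr a (enc l))] [] z)
        (st [enc l] [] [] (a :: z)) 4 := run_acts' _ (by simp [act2])
    refine (Run.loopT (by simp [tst2]) (a1.seq ((run_unP _ [] [] [] z).seq a2))
      (ih (a :: z))).congr (by simp) ?_
    have h1 := size_pr a (enc l)
    have h2 := Enc.size_le l
    have h3 : l.length * (21 * sz l + 23) ≤ l.length * (21 * sz (a :: l) + 23) :=
      Nat.mul_le_mul_left _ (by simp; omega)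
    simp only [List.length_cons, add_mul]
    simp only [sz_cons, sz_nat] at *
    omega

theorem sz_le_encL (l : List ℕ) : sz l ≤ 2 * (encL l).length := by
  induction l with
  | nil => simp
  | cons a l ih =>
    have e : (encL (a :: l)).length = 2 * a.bits.length + 1 + (encL l).length := by
      simp [encL, List.length_flatMap]; omega
    rw [e, sz_cons, sz_nat, Nat.size_eq_bits_len]; omega

open Turing in
/-- A polynomial-time function on lists of naturals is computed in polynomial time by a machine
with finite alphabets, for inputs given through any coding into lists of naturals. -/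
theorem PT.machine {f : List ℕ → List ℕ} (hf : PT f) {A B : Type} (ca : A → List ℕ)
    (cb : B → List ℕ) (g : A → B) (hg : ∀ a, f (ca a) = cb (g a)) :
    ∃ M : TM2ComputableInPolyTime (fun a => encL (ca a)) (fun b => encL (cb b)) g,
      ∀ k, Finite (M.tm.Γ k) := by
  have h1 : PT (fun l : List ℕ => (f l.reverse).reverse) := by fun_prop
  obtain ⟨⟨P, hP⟩, p, T, ⟨Q, hQ⟩, hp⟩ := h1
  obtain ⟨tm, hfin, C, hC⟩ := exists_machine
    (.seq (acts [.zero .m]) (.seq inLoop (.seq p outLoop))) bd K.z K.z
  let Y : Polynomial ℕ := Polynomial.C 2 * Polynomial.X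
  let W : Polynomial ℕ := Polynomial.C 3 + (Polynomial.C 19 * Y + 1 + (Q.comp Y +
    (P.comp Y * (Polynomial.C 21 * P.comp Y + Polynomial.C 23) + 1)))
  refine ⟨⟨tm, Polynomial.C C * (Polynomial.X + W + 1) ^ 2, fun a => ?_⟩, hfin⟩
  set i := ca a with hi
  have e0 : update (fun _ => []) K.z i = st [] [] [] i := by funext k; cases k <;> simp
  have a1 : R (acts [.zero .m]) (st [] [] [] i) (st [enc ([] : List ℕ)] [] [] i) 3 :=
    run_acts' _ (by simp [act2])
  have a2 := run_inLoop i []
  have a3 := hp i.reverse [] [] [] []
  have a4 := run_outLoop (f i.reverse.reverse).reverse []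
  rw [List.append_nil] at a2
  have b1 := sz_le_encL i
  have b2 : sz (f i.reverse.reverse).reverse ≤ _ := hP i.reverse
  have b3 := hQ i.reverse
  rw [sz_reverse i] at b2 b3
  have b4 := b2.trans (eval_mono P b1)
  have b5 := b3.trans (eval_mono Q b1)
  have b6 := length_le_sz (f i.reverse.reverse).reverse
  have run := (a1.seq (a2.seq (a3.seq a4))).weaken (t' := W.eval (encL i).length) (by
    have b7 : (f i.reverse.reverse).reverse.length * (21 * sz (f i.reverse.reverse).reverse + 23) ≤
        P.eval (2 * (encL i).length) * (21 * P.eval (2 * (encL i).length) + 23) :=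
      Nat.mul_le_mul (b6.trans b4) (by omega)
    simp only [W, Y, Polynomial.eval_add, Polynomial.eval_mul, Polynomial.eval_C,
      Polynomial.eval_X, Polynomial.eval_one, Polynomial.eval_comp]
    omega)
  rw [← e0] at run
  have h2 := Classical.choice (hC i _ _ run)
  simp only [st_z, List.reverse_reverse, List.append_nil] at h2
  rw [← hg a]
  simp only [Polynomial.eval_add, Polynomial.eval_mul, Polynomial.eval_C,
      Polynomial.eval_X, Polynomial.eval_one, Polynomial.eval_pow]
  exact h2

end Vale.Agent.Lib.PolyTime
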