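import Vale.Agent.Lib.PolyTime.Machine

/-! More closure properties: right folds, `takeWhile`, multiplication, remainder. -/

namespace Vale.Agent.Lib.PolyTime

variable {α β γ σ : Type} [Enc α] [Enc β] [Enc γ] [Enc σ]

theorem PT.foldr_add [Inhabited β] {f : α → β → σ → σ} {l : α → List β} {i : α → σ} {D : α → ℕ}
    (hf : PT (fun p : α × β × σ => f p.1 p.2.1 p.2.2)) (hl : PT l) (hi : PT i) (hD : PB D)
    (h : ∀ a s, ∀ y ∈ l a, sz (f a y s) ≤ sz s + D a) :
    PT (fun a => (l a).foldr (f a) (i a)) := by
  have h1 : PT (fun p : α × σ × β => f p.1 p.2.2 p.2.1) :=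
    hf.comp (f := fun p : α × σ × β => (p.1, p.2.2, p.2.1)) (by fun_prop)
  have h2 := PT.foldl_add (f := fun a s y => f a y s) h1 hl.reverse hi hD
    (fun a s y hy => h a s y (List.mem_reverse.1 hy))
  exact h2.congr (fun a => by rw [List.foldl_reverse])

@[fun_prop] theorem PT.takeWhile [Inhabited β] {p : α → β → Bool} {l : α → List β}
    (hp : PT (fun q : α × β => p q.1 q.2)) (hl : PT l) : PT (fun a => (l a).takeWhile (p a)) := by
  have h1 : PT (fun q : α × β × List β => p q.1 q.2.1) :=
    hp.comp (f := fun q : α × β × List β => (q.1, q.2.1)) (by fun_prop)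
  have h := PT.foldr_add (f := fun a (y : β) (acc : List β) => if p a y = true then y :: acc else [])
    (i := fun _ => []) (by fun_prop) hl (by fun_prop) (hl.1.lin 2 2) (fun a s y hy => by
      have := sz_mem hy
      split_ifs
      · simp; omega
      · simp)
  refine h.congr (fun a => ?_)
  induction l a with
  | nil => simp
  | cons y L ih => by_cases hy : p a y = true <;> simp [hy, ih]

@[fun_prop] theorem PT.dropWhile [Inhabited β] {p : α → β → Bool} {l : α → List β}
    (hp : PT (fun q : α × β => p q.1 q.2)) (hl : PT l) : PT (fun a => (l a).dropWhile (p a)) := by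
  have h : PT (fun a => (l a).drop ((l a).takeWhile (p a)).length) := by fun_prop
  refine h.congr (fun a => ?_)
  induction l a with
  | nil => simp
  | cons y L ih => by_cases hy : p a y = true <;> simp [hy, ih]

theorem sz_bits (n : ℕ) : sz n.bits = 4 * Nat.size n := by
  rw [sz_eq_sum, ← Nat.size_eq_bits_len]; simp; omega

@[fun_prop] theorem PT.bits {n : α → ℕ} (hn : PT n) : PT (fun a => (n a).bits) := by
  let F : ℕ × List Bool → ℕ × List Bool :=
    fun s => (s.1 / 2, s.2 ++ [Decidable.decide (s.1 - s.1 / 2 - s.1 / 2 = 1)])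
  have hF : PT F := by
    have : PT (fun s : ℕ × List Bool => s.1 / 2) := PT.half (by fun_prop)
    fun_prop
  have step : ∀ m : ℕ, m ≠ 0 →
      m.bits = Decidable.decide (m - m / 2 - m / 2 = 1) :: (m / 2).bits := by
    intro m hm
    have h1 : m = Nat.bit (Decidable.decide (m - m / 2 - m / 2 = 1)) (m / 2) := by
      rcases Nat.mod_two_eq_zero_or_one m with h2 | h2
      · rw [show m - m / 2 - m / 2 = 0 by omega]; simp [Nat.bit]; omega
      · rw [show m - m / 2 - m / 2 = 1 by omega]; simp [Nat.bit]; omega
    conv_lhs => rw [h1]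
    refine Nat.bits_append_bit _ _ (fun h => ?_)
    rw [decide_eq_true_eq]; omega
  have key : ∀ k m acc, k ≤ Nat.size m → (F^[k] (m, acc)).2 ++ (F^[k] (m, acc)).1.bits =
      acc ++ m.bits ∧ Nat.size (F^[k] (m, acc)).1 + k = Nat.size m := by
    intro k
    induction k with
    | zero => simp
    | succ k ih =>
      intro m acc hk
      have hm : m ≠ 0 := by rintro rfl; simp at hk
      have hs := size_half hm
      rw [Function.iterate_succ_apply]
      obtain ⟨h1, h2⟩ := ih (m / 2) (acc ++ [Decidable.decide (m - m / 2 - m / 2 = 1)]) (by omega)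
      refine ⟨h1.trans ?_, by rw [hs, ← h2]; rfl⟩
      rw [step m hm]; simp
  have h1 := PT.whileLoop (F := F) (c := fun s => s.1) (i := fun a => (n a, []))
    (N := fun a => Nat.size (n a)) (B := fun a => 6 * Nat.size (n a) + 1) hF (by fun_prop)
    (by fun_prop) hn.1 (hn.1.lin 6 1)
    (fun a k hk h0 => by
      have := (key k (n a) [] hk.le).2
      rw [h0] at this; simp at this; omega)
    (fun a => by
      have := (key _ (n a) [] le_rfl).2
      exact Nat.size_eq_zero.1 (by omega))
    (fun a k hk => by
      obtain ⟨h2, h3⟩ := key k (n a) [] hk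
      have h4 := congrArg sz h2
      rw [sz_append, List.nil_append, sz_bits (n a)] at h4
      rw [sz_prod, sz_nat]; omega)
  refine h1.snd.congr (fun a => ?_)
  obtain ⟨h2, h3⟩ := key _ (n a) [] le_rfl
  rw [Nat.size_eq_zero.1 (show Nat.size (F^[Nat.size (n a)] (n a, [])).1 = 0 by omega)] at h2
  simpa using h2.symm

theorem foldr_bits (n : ℕ) (g : Bool → ℕ → ℕ) (h : ℕ → ℕ) (h0 : h 0 = 0)
    (hs : ∀ b k, g b (h k) = h (2 * k + b.toNat)) : n.bits.foldr g 0 = h n := by
  induction n using Nat.binaryRec' with
  | zero => simp [h0]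
  | bit b k hk ih =>
    rw [Nat.bits_append_bit k b hk, List.foldr_cons, ih, hs, Nat.bit_val]

@[fun_prop] theorem PT.mul {f g : α → ℕ} (hf : PT f) (hg : PT g) : PT (fun a => f a * g a) := by
  have h := PT.foldr_add (f := fun a (b : Bool) (acc : ℕ) => acc + acc + if b = true then g a else 0)
    (i := fun _ => 0) (by fun_prop) hf.bits (by fun_prop) (hg.1.add (PB.const 2))
    (fun a s y _ => by
      have h1 := size_add_le (s + s) (g a)
      have h2 : Nat.size (s + s) ≤ Nat.size s + 1 := by
        rw [Nat.size_le, pow_succ]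
        have := Nat.lt_size_self s
        omega
      simp only [sz_nat]
      split_ifs
      · omega
      · simp only [add_zero]; omega)
  refine h.congr (fun a => (foldr_bits _ _ (fun k => k * g a) (by simp) (fun b k => ?_)).symm)
  cases b <;> simp <;> ring

@[fun_prop] theorem PT.mod {f g : α → ℕ} (hf : PT f) (hg : PT g) : PT (fun a => f a % g a) := by
  have h := PT.foldr_add (f := fun a (b : Bool) (acc : ℕ) =>
      if acc + acc + (if b = true then 1 else 0) < g a then acc + acc + (if b = true then 1 else 0)
      else acc + acc + (if b = true then 1 else 0) - g a)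
    (i := fun _ => 0) (by fun_prop) hf.bits (by fun_prop) (PB.const 1)
    (fun a s y _ => by
      have h2 : Nat.size (s + s + 1) ≤ Nat.size s + 1 := by
        rw [Nat.size_le, pow_succ]
        have := Nat.lt_size_self s
        omega
      refine le_trans (sz_nat_mono (b := s + s + 1) ?_) h2
      split_ifs <;> omega)
  refine h.congr (fun a => (foldr_bits _ _ (fun k => k % g a) (by simp) (fun b k => ?_)).symm)
  have e : (if b = true then 1 else 0) = b.toNat := by cases b <;> rfl
  rw [e]
  rcases Nat.eq_zero_or_pos (g a) with h0 | h0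
  · simp [h0]; omega
  · have h1 := Nat.mod_lt k h0
    have h2 : b.toNat ≤ 1 := Bool.toNat_le b
    have h3 : (2 * k + b.toNat) % g a = (k % g a + k % g a + b.toNat) % g a := by
      conv_lhs => rw [← Nat.div_add_mod k (g a)]
      rw [show 2 * (g a * (k / g a) + k % g a) + b.toNat =
        k % g a + k % g a + b.toNat + g a * (2 * (k / g a)) by ring, Nat.add_mul_mod_self_left]
    rw [h3]
    generalize k % g a = j at *
    split_ifs with h4
    · exact (Nat.mod_eq_of_lt h4).symm
    · rw [Nat.mod_eq_sub_mod (by omega), Nat.mod_eq_of_lt (by omega)]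

@[fun_prop] theorem PT.iff {p q : α → Prop} (hp : PT p) (hq : PT q) : PT (fun a => p a ↔ q a) :=
  (PT.eq hp hq).congr (fun _ => propext ⟨propext, fun h => h ▸ Iff.rfl⟩)

end Vale.Agent.Lib.PolyTime
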