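import Vale.Agent.Lib.PolyTime.More

/-! Polynomial-time functions on bit strings are computed by machines with raw input and output. -/

namespace Vale.Agent.Lib.PolyTime

open Vale.Agent.Lib.StackLang Function Turing Turing.TM2

namespace Raw

/-- The letter code of a bit string. -/
def cd (w : List Bool) : List Bool := encL (w.map Bool.toNat)

theorem cd_false (w : List Bool) : cd (false :: w) = false :: cd w := by simp [cd, encL]
theorem cd_true (w : List Bool) : cd (true :: w) = true :: true :: false :: cd w := by
  simp [cd, encL]
theorem cd_append (w w' : List Bool) : cd (w ++ w') = cd w ++ cd w' := by simp [cd, encL]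
theorem length_cd (w : List Bool) : (cd w).length ≤ 3 * w.length := by
  induction w with
  | nil => simp [cd, encL]
  | cons b w ih => cases b <;> simp [cd_false, cd_true] <;> omega

variable (M : TM2ComputableAux Bool Bool)

/-- Alphabets: one more stack of raw bits. -/
@[reducible] def Gm : Option M.tm.K → Type
  | none => Bool
  | some k => M.tm.Γ k

/-- Statements of the enlarged machine. -/
abbrev St : Type := Stmt (Gm M) (M.tm.Λ ⊕ Bool) (M.tm.σ × Option Bool)

/-- Statements of the given machine inside the enlarged one. -/
def up : Stmt M.tm.Γ M.tm.Λ M.tm.σ → St M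
  | .push k f q => .push (some k) (fun v => f v.1) (up q)
  | .peek k f q => .peek (some k) (fun v o => (f v.1 o, v.2)) (up q)
  | .pop k f q => .pop (some k) (fun v o => (f v.1 o, v.2)) (up q)
  | .load f q => .load (fun v => (f v.1, v.2)) (up q)
  | .branch f q q' => .branch (fun v => f v.1) (up q) (up q')
  | .goto f => .goto fun v => .inl (f v.1)
  | .halt => .goto fun _ => .inr true

/-- Push a fixed bit on the input stack of the given machine. -/
def pu (b : Bool) (q : St M) : St M := .push (some M.tm.k₀) (fun _ => M.inputAlphabet.symm b) q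

/-- The input loop. -/
def rdIn : St M := .pop none (fun v (o : Option Bool) => (v.1, o))
  (.branch (fun v => v.2.isNone) (.goto fun _ => .inl M.tm.main)
    (.branch (fun v => v.2 == some true) (pu M false (pu M true (pu M true
      (.goto fun _ => .inr false)))) (pu M false (.goto fun _ => .inr false))))

/-- The output loop. -/
def wrOut : St M := .pop (some M.tm.k₁) (fun v o => (v.1, o.map M.outputAlphabet))
  (.branch (fun v => v.2.isNone) .halt
    (.branch (fun v => v.2 == some true)
      (.pop (some M.tm.k₁) (fun v _ => v) (.pop (some M.tm.k₁) (fun v _ => v)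
        (.push none (fun _ => (true : Bool)) (.goto fun _ => .inr true))))
      (.push none (fun _ => (false : Bool)) (.goto fun _ => .inr true))))

/-- The enlarged machine. -/
def mach : FinTM2 :=
  letI := M.tm.kFin
  letI := M.tm.ΛFin
  letI := M.tm.σFin
  { K := Option M.tm.K
    k₀ := none
    k₁ := none
    Γ := Gm M
    Λ := M.tm.Λ ⊕ Bool
    main := .inr false
    σ := M.tm.σ × Option Bool
    initialState := (M.tm.initialState, none)
    Γk₀Fin := inferInstanceAs (Fintype Bool)
    m := fun l => match l with
      | .inl l => up M (M.tm.m l)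
      | .inr false => rdIn M
      | .inr true => wrOut M }

variable {M}

/-- Stacks of the enlarged machine. -/
def stk (r : List Bool) (S : ∀ k, List (M.tm.Γ k)) : ∀ k, List (Gm M k)
  | none => r
  | some k => S k

theorem stk_some (r : List Bool) (S : ∀ k, List (M.tm.Γ k)) (k : M.tm.K) (x : List (M.tm.Γ k)) :
    update (stk r S) (some k) x = stk r (update S k x) := by
  funext j
  rcases j with _ | j
  · rw [update_of_ne (by simp)]; rfl
  · by_cases h : j = k
    · subst h; simp [stk]
    · rw [update_of_ne (by simpa using h)]; simp [stk, update_of_ne h]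

theorem stk_none (r r' : List Bool) (S : ∀ k, List (M.tm.Γ k)) :
    update (stk r S) none r' = stk r' S := by
  funext j
  rcases j with _ | j
  · simp [stk]
  · rw [update_of_ne (by simp)]; rfl

/-- Configurations of the given machine inside the enlarged one. -/
def upC (c : M.tm.Cfg) : (mach M).Cfg :=
  ⟨some (c.l.elim (.inr true) .inl), (c.var, none), stk [] c.stk⟩

theorem stepAux_up (q : Stmt M.tm.Γ M.tm.Λ M.tm.σ) : ∀ (v : M.tm.σ) (S : ∀ k, List (M.tm.Γ k)),
    stepAux (up M q) (v, none) (stk [] S) = upC (stepAux q v S) := by
  induction q with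
  | push k f q ih => intro v S; exact (congrArg _ (stk_some [] S k _)).trans (ih _ _)
  | peek k f q ih => intro v S; exact ih _ _
  | pop k f q ih => intro v S; exact (congrArg _ (stk_some [] S k _)).trans (ih _ _)
  | load f q ih => intro v S; exact ih _ _
  | branch f q q' ih ih' =>
    intro v S
    simp only [up, stepAux]
    cases f v
    exacts [ih' _ _, ih _ _]
  | goto f => intro v S; rfl
  | halt => intro v S; rfl

theorem iter_up (n : ℕ) : ∀ c c' : M.tm.Cfg, (flip bind M.tm.step)^[n] (some c) = some c' →
    (flip bind (mach M).step)^[n] (some (upC c)) = some (upC c') := by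
  induction n with
  | zero => intro c c' h; exact congrArg (Option.map upC) h
  | succ n ih =>
    rintro ⟨_ | l, v, S⟩ c' h
    · have : ∀ n, (flip bind M.tm.step)^[n] none = none := fun n => iterate_fixed rfl n
      exact absurd ((this n).symm.trans h) (by simp)
    · exact (congrArg (fun x => (flip bind (mach M).step)^[n] (some x))
        (stepAux_up (M.tm.m l) v S)).trans (ih _ _ h)

theorem iter_in (w : List Bool) : ∀ (v : M.tm.σ) (o : Option Bool) (S : ∀ k, List (M.tm.Γ k)),
    (flip bind (mach M).step)^[w.length + 1] (some ⟨some (.inr false), (v, o), stk w S⟩) =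
      some (upC ⟨some M.tm.main, v,
        update S M.tm.k₀ ((cd w.reverse).map M.inputAlphabet.symm ++ S M.tm.k₀)⟩) := by
  induction w with
  | nil =>
    intro v o S
    refine congrArg (fun x => some (Cfg.mk _ _ x)) ((stk_none [] [] S).trans ?_)
    simp [cd, encL]
  | cons b w ih =>
    intro v o S
    have e : stepAux (rdIn M) (v, o) (stk (b :: w) S) = ⟨some (.inr false), (v, some b),
        stk w (update S M.tm.k₀ ((cd [b]).map M.inputAlphabet.symm ++ S M.tm.k₀))⟩ := by
      cases b
      · simp [rdIn, pu, stk_none, stk_some, cd_false, stk, cd, encL]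
      · simp [rdIn, pu, stk_none, stk_some, cd_true, stk, cd, encL]
    refine (congrArg (fun x => (flip bind (mach M).step)^[w.length + 1] (some x)) e).trans
      ((ih _ _ _).trans ?_)
    simp [cd_append]

theorem iter_out (w : List Bool) : ∀ (v : M.tm.σ) (o : Option Bool) (r : List Bool)
    (S : ∀ k, List (M.tm.Γ k)), S M.tm.k₁ = (cd w).map M.outputAlphabet.symm →
    (flip bind (mach M).step)^[w.length + 1] (some ⟨some (.inr true), (v, o), stk r S⟩) =
      some ⟨none, (v, none), stk (w.reverse ++ r) (update S M.tm.k₁ [])⟩ := by
  induction w with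
  | nil =>
    intro v o r S hS
    have e : stepAux (wrOut M) (v, o) (stk r S) =
        ⟨none, (v, none), stk r (update S M.tm.k₁ [])⟩ := by
      simp [wrOut, stk_some, stk, hS, cd, encL]
    exact congrArg some e
  | cons b w ih =>
    intro v o r S hS
    have e : stepAux (wrOut M) (v, o) (stk r S) = ⟨some (.inr true), (v, some b),
        stk (b :: r) (update S M.tm.k₁ ((cd w).map M.outputAlphabet.symm))⟩ := by
      cases b
      · simp [wrOut, stk_none, stk_some, cd_false, stk, hS]
      · simp [wrOut, stk_none, stk_some, cd_true, stk, hS]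
    refine (congrArg (fun x => (flip bind (mach M).step)^[w.length + 1] (some x)) e).trans
      ((ih _ _ _ _ (by simp)).trans ?_)
    simp

theorem init_eq (tm : FinTM2) (s : List (tm.Γ tm.k₀)) :
    initList tm s = ⟨some tm.main, tm.initialState, update (fun _ => []) tm.k₀ s⟩ := by
  unfold initList
  congr 1
  funext j
  by_cases h : j = tm.k₀
  · subst h; simp
  · simp [h]

theorem halt_eq (tm : FinTM2) (s : List (tm.Γ tm.k₁)) :
    haltList tm s = ⟨none, tm.initialState, update (fun _ => []) tm.k₁ s⟩ := by
  unfold haltList
  congr 1
  funext j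
  by_cases h : j = tm.k₁
  · subst h; simp
  · simp [h]

theorem outputs {w w' : List Bool} {t t' : ℕ}
    (h : TM2OutputsInTime M.tm ((cd w.reverse).map M.inputAlphabet.invFun)
      (some ((cd w'.reverse).map M.outputAlphabet.invFun)) t)
    (ht : t + w.length + w'.length + 2 ≤ t') :
    Nonempty (TM2OutputsInTime (mach M) w (some w') t') := by
  obtain ⟨⟨n, h1⟩, h2⟩ := h
  have e0 : ∀ r : List Bool, update (fun k => ([] : List (Gm M k))) none r = stk r fun _ => [] :=
    fun r => Eq.trans (by congr 1; funext k; cases k <;> rfl) (stk_none [] r _)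
  have e1 := iter_in (M := M) w M.tm.initialState none fun _ => []
  have e2 := iter_up n _ _ h1
  have e3 := iter_out (M := M) w'.reverse M.tm.initialState none []
    (update (fun _ => []) M.tm.k₁ ((cd w'.reverse).map M.outputAlphabet.invFun))
    (update_self _ _ _)
  rw [List.append_nil] at e1
  rw [init_eq, halt_eq] at e2
  rw [List.reverse_reverse, List.append_nil, update_idem, update_eq_self] at e3
  refine ⟨⟨⟨w'.reverse.length + 1 + (n + (w.length + 1)), ?_⟩, ?_⟩⟩
  · refine (iterate_add_apply _ _ _ _).trans (Eq.trans (congrArg _
      ((iterate_add_apply _ _ _ _).trans ((congrArg _ (Eq.trans ?_ e1)).trans e2))) (e3.trans ?_))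
    · exact congrArg (fun x => (flip bind (mach M).step)^[w.length + 1] (some x))
        ((init_eq (mach M) w).trans (congrArg (Cfg.mk _ _) (e0 w)))
    · exact congrArg some ((congrArg (Cfg.mk _ _) (e0 w').symm).trans (halt_eq (mach M) w').symm)
  · simp only [List.length_reverse] at h2 ⊢
    omega

end Raw

/-- A polynomial-time function on bit strings is computed in polynomial time by a machine with
finite alphabets that reads and writes raw bit strings. -/
theorem PT.rawMachine {f : List Bool → List Bool} (hf : PT f) {A B : Type} (ca : A → List Bool)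
    (cb : B → List Bool) (g : A → B) (hg : ∀ a, f (ca a) = cb (g a)) :
    ∃ M : TM2ComputableInPolyTime ca cb g, ∀ k, Finite (M.tm.Γ k) := by
  have h1 : PT (fun l : List ℕ =>
      (f (l.map fun n => Decidable.decide (n = 1)).reverse).reverse.map
        fun b => if b = true then 1 else 0) := by fun_prop
  obtain ⟨M, hM⟩ := h1.machine (fun a => (ca a).reverse.map Bool.toNat)
    (fun b => (cb b).reverse.map Bool.toNat) g fun a => by
      have e1 : ((fun n => Decidable.decide (n = 1)) ∘ Bool.toNat) = _root_.id := by
        funext b; cases b <;> rfl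
      have e2 : (fun b => if b = true then 1 else 0) = Bool.toNat := by funext b; cases b <;> rfl
      rw [List.map_map, e1, List.map_id, List.reverse_reverse, hg, e2]
  obtain ⟨⟨P, hP⟩, -⟩ := hf
  refine ⟨⟨⟨Raw.mach M.toTM2ComputableAux, Equiv.refl Bool, Equiv.refl Bool⟩,
    M.time.comp (Polynomial.C 3 * Polynomial.X) + Polynomial.X +
      P.comp (Polynomial.C 4 * Polynomial.X) + Polynomial.C 2, fun a => ?_⟩, ?_⟩
  · have e3 : ∀ l : List Bool, List.map (Equiv.refl Bool).invFun l = l := fun l => List.map_id l
    refine (e3 (ca a)).symm ▸ (e3 (cb (g a))).symm ▸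
      Classical.choice (Raw.outputs (M.outputsFun a) ?_)
    have b1 := eval_mono M.time (Raw.length_cd (ca a).reverse)
    have b2 : sz (ca a) ≤ 4 * (ca a).length := by
      induction ca a with
      | nil => simp
      | cons b l ih => simp; omega
    have b3 := (length_le_sz _).trans ((hP (ca a)).trans (eval_mono P b2))
    rw [hg] at b3
    rw [List.length_reverse] at b1
    simp only [Polynomial.eval_add, Polynomial.eval_mul, Polynomial.eval_C,
      Polynomial.eval_X, Polynomial.eval_comp]
    exact Nat.add_le_add_right (Nat.add_le_add (Nat.add_le_add_right b1 _) b3) _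
  · rintro (_ | k)
    · exact inferInstanceAs (Finite Bool)
    · exact hM k

end Vale.Agent.Lib.PolyTime
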